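import Mathlib

/-!
P022, level 3: the theta series of `x² + x y + y²`, analytic part.
-/

open Complex Real

noncomputable section

namespace Vale.Agent.P022.H390

/-- `∑ q^(x²+3y²) + ∑ q^(x²+x+3y²+3y+1)` -/
def Th (τ : ℂ) : ℂ :=
  jacobiTheta₂ 0 (2 * τ) * jacobiTheta₂ 0 (6 * τ) +
    cexp (2 * π * I * τ) * (jacobiTheta₂ τ (2 * τ) * jacobiTheta₂ (3 * τ) (6 * τ))

theorem Th_add_one (τ : ℂ) : Th (τ + 1) = Th τ := by
  have h0 : ∀ z w : ℂ, jacobiTheta₂ z (w + 6) = jacobiTheta₂ z w := fun z w => by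
    rw [show w + 6 = w + 2 + 2 + 2 by ring, jacobiTheta₂_add_right, jacobiTheta₂_add_right,
      jacobiTheta₂_add_right]
  have h1 : ∀ z w : ℂ, jacobiTheta₂ (z + 3) w = jacobiTheta₂ z w := fun z w => by
    rw [show z + 3 = z + 1 + 1 + 1 by ring, jacobiTheta₂_add_left, jacobiTheta₂_add_left,
      jacobiTheta₂_add_left]
  unfold Th
  rw [show 2 * (τ + 1) = 2 * τ + 2 by ring, show 6 * (τ + 1) = 6 * τ + 6 by ring,
    show 3 * (τ + 1) = 3 * τ + 3 by ring, h0, h0, h1, jacobiTheta₂_add_right,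
    jacobiTheta₂_add_right, jacobiTheta₂_add_left,
    show 2 * (π : ℂ) * I * (τ + 1) = 2 * π * I * τ + 2 * π * I by ring, Complex.exp_add,
    Complex.exp_two_pi_mul_I, mul_one]

theorem evenOdd {f : ℤ → ℂ} {a b : ℂ} (he : HasSum (fun k => f (2 * k)) a)
    (ho : HasSum (fun k => f (2 * k + 1)) b) : HasSum f (a + b) := by
  have h := mul_right_injective₀ (two_ne_zero' ℤ)
  replace ho := ((add_left_injective 1).comp h).hasSum_range_iff.2 ho
  refine (h.hasSum_range_iff.2 he).add_isCompl ?_ ho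
  simpa [Function.comp_def] using Int.isCompl_even_odd

theorem term_even (n : ℤ) (w : ℂ) :
    jacobiTheta₂_term (2 * n) 0 w = jacobiTheta₂_term n 0 (4 * w) := by
  unfold jacobiTheta₂_term
  congr 1
  push_cast
  ring

theorem term_odd (n : ℤ) (w : ℂ) : jacobiTheta₂_term (2 * n + 1) 0 w =
    cexp (π * I * w) * jacobiTheta₂_term n (2 * w) (4 * w) := by
  unfold jacobiTheta₂_term
  rw [← Complex.exp_add]
  congr 1
  push_cast
  ring

theorem term_even' (n : ℤ) (w : ℂ) :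
    jacobiTheta₂_term (2 * n) (1 / 2) w = jacobiTheta₂_term n 0 (4 * w) := by
  unfold jacobiTheta₂_term
  rw [show 2 * (π : ℂ) * I * ((2 * n : ℤ) : ℂ) * (1 / 2) + π * I * ((2 * n : ℤ) : ℂ) ^ 2 * w =
    (2 * π * I * n * 0 + π * I * n ^ 2 * (4 * w)) + n * (2 * π * I) by push_cast; ring,
    Complex.exp_add, Complex.exp_int_mul_two_pi_mul_I, mul_one]

theorem term_odd' (n : ℤ) (w : ℂ) : jacobiTheta₂_term (2 * n + 1) (1 / 2) w =
    -(cexp (π * I * w) * jacobiTheta₂_term n (2 * w) (4 * w)) := by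
  unfold jacobiTheta₂_term
  rw [← Complex.exp_add,
    show 2 * (π : ℂ) * I * ((2 * n + 1 : ℤ) : ℂ) * (1 / 2) +
        π * I * ((2 * n + 1 : ℤ) : ℂ) ^ 2 * w =
    (π * I * w + (2 * π * I * n * (2 * w) + π * I * n ^ 2 * (4 * w))) + π * I +
      n * (2 * π * I) by push_cast; ring,
    Complex.exp_add, Complex.exp_int_mul_two_pi_mul_I, mul_one, Complex.exp_add _ (π * I),
    Complex.exp_pi_mul_I]
  ring

theorem im_nat_mul (n : ℕ) (hn : 0 < n) {w : ℂ} (hw : 0 < w.im) : 0 < ((n : ℂ) * w).im := by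
  simp only [Complex.mul_im, Complex.natCast_re, Complex.natCast_im, zero_mul, add_zero]
  have : (0 : ℝ) < n := by exact_mod_cast hn
  positivity

/-- even and odd indices -/
theorem split0 (w : ℂ) (hw : 0 < w.im) : jacobiTheta₂ 0 w =
    jacobiTheta₂ 0 (4 * w) + cexp (π * I * w) * jacobiTheta₂ (2 * w) (4 * w) := by
  have h4 : 0 < (4 * w).im := by simpa using im_nat_mul 4 (by norm_num) hw
  have he := hasSum_jacobiTheta₂_term 0 h4
  have ho := (hasSum_jacobiTheta₂_term (2 * w) h4).mul_left (cexp (π * I * w))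
  refine (hasSum_jacobiTheta₂_term 0 hw).unique (evenOdd ?_ ?_)
  · simpa only [term_even] using he
  · simpa only [term_odd] using ho

/-- even and odd indices -/
theorem split1 (w : ℂ) (hw : 0 < w.im) : jacobiTheta₂ (1 / 2) w =
    jacobiTheta₂ 0 (4 * w) - cexp (π * I * w) * jacobiTheta₂ (2 * w) (4 * w) := by
  have h4 : 0 < (4 * w).im := by simpa using im_nat_mul 4 (by norm_num) hw
  have he := hasSum_jacobiTheta₂_term 0 h4
  have ho := ((hasSum_jacobiTheta₂_term (2 * w) h4).mul_left (cexp (π * I * w))).neg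
  rw [sub_eq_add_neg]
  refine (hasSum_jacobiTheta₂_term (1 / 2) hw).unique (evenOdd ?_ ?_)
  · simpa only [term_even'] using he
  · simpa only [term_odd'] using ho

/-- `θ₃(-1/w) = √(-iw) θ₃(w)` -/
theorem fe0 (w : ℂ) (hw : 0 < w.im) :
    jacobiTheta₂ 0 (-1 / w) = (-I * w) ^ (1 / 2 : ℂ) * jacobiTheta₂ 0 w := by
  have hw0 : w ≠ 0 := by
    rintro rfl
    simp at hw
  have h := jacobiTheta₂_functional_equation 0 w
  have h1 : (-I * w) ^ (1 / 2 : ℂ) ≠ 0 := by
    rw [Ne, Complex.cpow_eq_zero_iff]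
    intro h2
    exact (mul_ne_zero (neg_ne_zero.2 I_ne_zero) hw0) h2.1
  rw [h]
  simp only [zero_div, ne_eq, OfNat.ofNat_ne_zero, not_false_eq_true, zero_pow, mul_zero,
    Complex.exp_zero, mul_one]
  field_simp

/-- `θ₂(-1/w) = √(-iw) θ₄(w)` -/
theorem fe1 (w : ℂ) (hw : 0 < w.im) :
    cexp (-(π * I) / (4 * w)) * jacobiTheta₂ (-1 / (2 * w)) (-1 / w) =
      (-I * w) ^ (1 / 2 : ℂ) * jacobiTheta₂ (1 / 2) w := by
  have hw0 : w ≠ 0 := by
    rintro rfl
    simp at hw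
  have h := jacobiTheta₂_functional_equation (-(1 / 2)) w
  have h1 : (-I * w) ^ (1 / 2 : ℂ) ≠ 0 := by
    rw [Ne, Complex.cpow_eq_zero_iff]
    intro h2
    exact (mul_ne_zero (neg_ne_zero.2 I_ne_zero) hw0) h2.1
  rw [jacobiTheta₂_neg_left] at h
  rw [h, show -(1 / 2 : ℂ) / w = -1 / (2 * w) by field_simp,
    show -(π : ℂ) * I * (-(1 / 2)) ^ 2 / w = -(π * I) / (4 * w) by field_simp; ring]
  field_simp

/-- `√3` -/
def s3 : ℂ := cexp (((Real.log 3 : ℝ) : ℂ) / 2)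

theorem s3_sq : s3 * s3 = 3 := by
  unfold s3
  rw [← Complex.exp_add, add_halves, ← Complex.ofReal_exp, Real.exp_log (by norm_num)]
  norm_num

theorem s3_ne : s3 ≠ 0 := Complex.exp_ne_zero _

theorem sqrt_mul (x : ℂ) (hx : x ≠ 0) :
    (3 * x) ^ (1 / 2 : ℂ) * x ^ (1 / 2 : ℂ) = s3 * x := by
  have h3 : Complex.log (3 * x) = ((Real.log 3 : ℝ) : ℂ) + Complex.log x := by
    have := Complex.log_ofReal_mul (r := 3) (by norm_num) hx
    simpa using this
  rw [Complex.cpow_def_of_ne_zero (mul_ne_zero (by norm_num) hx), Complex.cpow_def_of_ne_zero hx,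
    h3, ← Complex.exp_add]
  unfold s3
  conv_rhs => rw [← Complex.exp_log hx, ← Complex.exp_add]
  congr 1
  ring

/-- the transformation law of level `3` -/
theorem Th_W (τ : ℂ) (hτ : 0 < τ.im) : Th (-1 / (3 * τ)) = s3 * (-I * τ) * Th τ := by
  have hτ0 : τ ≠ 0 := by
    rintro rfl
    simp at hτ
  have ha : 0 < (τ / 2).im := by
    rw [show τ / 2 = ((1 / 2 : ℝ) : ℂ) * τ by push_cast; ring, Complex.im_ofReal_mul]
    positivity
  have hb : 0 < (3 * τ / 2).im := by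
    rw [show 3 * τ / 2 = ((3 / 2 : ℝ) : ℂ) * τ by push_cast; ring, Complex.im_ofReal_mul]
    positivity
  have ea := fe0 (τ / 2) ha
  have eb := fe0 (3 * τ / 2) hb
  have ga := fe1 (τ / 2) ha
  have gb := fe1 (3 * τ / 2) hb
  have sa := split0 (τ / 2) ha
  have sb := split0 (3 * τ / 2) hb
  have ta := split1 (τ / 2) ha
  have tb := split1 (3 * τ / 2) hb
  have hr := sqrt_mul (-I * (τ / 2)) (mul_ne_zero (neg_ne_zero.2 I_ne_zero)
    (div_ne_zero hτ0 two_ne_zero))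
  have c1 : 2 * (-1 / (3 * τ)) = -1 / (3 * τ / 2) := by field_simp
  have c2 : 6 * (-1 / (3 * τ)) = -1 / (τ / 2) := by field_simp; norm_num
  have c3 : -1 / (3 * τ) = -1 / (2 * (3 * τ / 2)) := by field_simp
  have c4 : 3 * (-1 / (3 * τ)) = -1 / (2 * (τ / 2)) := by field_simp
  have c5 : cexp (2 * π * I * (-1 / (3 * τ))) =
      cexp (-(π * I) / (4 * (3 * τ / 2))) * cexp (-(π * I) / (4 * (τ / 2))) := by
    rw [← Complex.exp_add]
    congr 1
    field_simp
    ring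
  have c6 : cexp (2 * π * I * τ) = cexp (π * I * (τ / 2)) * cexp (π * I * (3 * τ / 2)) := by
    rw [← Complex.exp_add]
    congr 1
    ring
  have c7 : -I * (3 * τ / 2) = 3 * (-I * (τ / 2)) := by ring
  rw [c7] at eb gb
  rw [show 4 * (τ / 2) = 2 * τ by ring] at sa ta
  rw [show 4 * (3 * τ / 2) = 6 * τ by ring] at sb tb
  rw [show 2 * (τ / 2) = τ by ring] at sa ta
  rw [show 2 * (3 * τ / 2) = 3 * τ by ring] at sb tb
  have L : Th (-1 / (3 * τ)) =
      jacobiTheta₂ 0 (-1 / (3 * τ / 2)) * jacobiTheta₂ 0 (-1 / (τ / 2)) +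
      (cexp (-(π * I) / (4 * (3 * τ / 2))) *
        jacobiTheta₂ (-1 / (2 * (3 * τ / 2))) (-1 / (3 * τ / 2))) *
      (cexp (-(π * I) / (4 * (τ / 2))) *
        jacobiTheta₂ (-1 / (2 * (τ / 2))) (-1 / (τ / 2))) := by
    unfold Th
    rw [c5, c1, c2, c4, ← c3]
    ring
  rw [L, ga, gb, ea, eb, sa, sb, ta, tb]
  unfold Th
  rw [c6]
  linear_combination 2 * (jacobiTheta₂ 0 (2 * τ) * jacobiTheta₂ 0 (6 * τ) +
    cexp (π * I * (τ / 2)) * cexp (π * I * (3 * τ / 2)) *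
      (jacobiTheta₂ τ (2 * τ) * jacobiTheta₂ (3 * τ) (6 * τ))) * hr

/-- the transformation law under `[1, 0; 3, 1]` -/
theorem Th_L (τ : ℂ) (hτ : 0 < τ.im) : Th (τ / (3 * τ + 1)) = (3 * τ + 1) * Th τ := by
  have hτ0 : τ ≠ 0 := by
    rintro rfl
    simp at hτ
  have h1 : 3 * τ + 1 ≠ 0 := by
    intro h
    have := congrArg Complex.im h
    simp at this
    linarith
  have hu : 0 < (-1 / (3 * τ) - 1).im := by
    rw [Complex.sub_im, Complex.one_im, sub_zero, neg_div, Complex.neg_im, one_div,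
      Complex.inv_im, neg_div, neg_neg]
    have h3 : 0 < (3 * τ).im := by simpa using im_nat_mul 3 (by norm_num) hτ
    have h4 : 0 < Complex.normSq (3 * τ) := Complex.normSq_pos.2 (mul_ne_zero three_ne_zero hτ0)
    positivity
  have h := Th_W (-1 / (3 * τ) - 1) hu
  have h2 : -1 / (3 * (-1 / (3 * τ) - 1)) = τ / (3 * τ + 1) := by
    have h5 : -1 / (3 * τ) - 1 ≠ 0 := by
      intro h6
      rw [h6] at hu
      simp at hu
    rw [show (-1 / (3 * τ) - 1) = -(3 * τ + 1) / (3 * τ) by field_simp; ring]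
    field_simp
  have h7 : Th (-1 / (3 * τ) - 1) = Th (-1 / (3 * τ)) := by
    rw [← Th_add_one (-1 / (3 * τ) - 1), sub_add_cancel]
  rw [h2, h7, Th_W τ hτ] at h
  have e : (-1 / (3 * τ) - 1) * τ = -(3 * τ + 1) / 3 := by
    field_simp
    ring
  have hI : I * I = -1 := Complex.I_mul_I
  rw [h]
  linear_combination (I * I * (-1 / (3 * τ) - 1) * τ * Th τ) * s3_sq +
    (3 * (-1 / (3 * τ) - 1) * τ * Th τ) * hI - 3 * Th τ * e

/-- the value at the other cusp -/
theorem Th_S (τ : ℂ) (hτ : 0 < τ.im) : Th (-1 / τ) = s3 * (-I * (τ / 3)) * Th (τ / 3) := by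
  have h3 : 0 < (τ / 3).im := by
    rw [show τ / 3 = ((1 / 3 : ℝ) : ℂ) * τ by push_cast; ring, Complex.im_ofReal_mul]
    positivity
  have h := Th_W (τ / 3) h3
  rwa [show 3 * (τ / 3) = τ by ring] at h

end Vale.Agent.P022.H390
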