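import Vale.Agent.P022.H390.ThA

/-!
P022, level 3: the `q`-expansion of the theta series.
-/

open Complex Real

noncomputable section

namespace Vale.Agent.P022.H390

/-- `x² + 3y²` -/
def nA (p : ℤ × ℤ) : ℕ := (p.1 ^ 2 + 3 * p.2 ^ 2).toNat

/-- `x² + x + 3y² + 3y + 1` -/
def nB (p : ℤ × ℤ) : ℕ := (p.1 ^ 2 + p.1 + 3 * (p.2 ^ 2 + p.2) + 1).toNat

theorem nA_cast (p : ℤ × ℤ) : ((nA p : ℕ) : ℤ) = p.1 ^ 2 + 3 * p.2 ^ 2 := by
  unfold nA
  rw [Int.toNat_of_nonneg (by positivity)]

theorem sq_add_nonneg (x : ℤ) : 0 ≤ x ^ 2 + x := by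
  rcases le_or_gt 0 x with h | h
  · positivity
  · nlinarith

theorem nB_cast (p : ℤ × ℤ) :
    ((nB p : ℕ) : ℤ) = p.1 ^ 2 + p.1 + 3 * (p.2 ^ 2 + p.2) + 1 := by
  unfold nB
  have h1 := sq_add_nonneg p.1
  have h2 := sq_add_nonneg p.2
  rw [Int.toNat_of_nonneg (by linarith)]

/-- the coefficients -/
def rTh (m : ℕ) : ℕ := Nat.card (nA ⁻¹' {m}) + Nat.card (nB ⁻¹' {m})

theorem hasSum_fib {n : ℤ × ℤ → ℕ} {q S : ℂ} (h : HasSum (fun p => q ^ n p) S) :
    HasSum (fun m : ℕ => (Nat.card (n ⁻¹' {m}) : ℂ) * q ^ m) S := by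
  have h1 := h.tsum_fiberwise n
  have h2 : (fun m : ℕ => (Nat.card (n ⁻¹' {m}) : ℂ) * q ^ m) =
      fun m : ℕ => ∑' b : n ⁻¹' {m}, q ^ n b := by
    funext m
    have h3 : ∀ b : n ⁻¹' {m}, q ^ n b = q ^ m := fun b => by
      have := b.2
      rw [Set.mem_preimage, Set.mem_singleton_iff] at this
      rw [this]
    rw [tsum_congr h3, tsum_const, nsmul_eq_mul]
  rw [h2]
  exact h1

theorem term_A (τ : ℂ) (p : ℤ × ℤ) : cexp (2 * π * I * τ) ^ nA p =
    jacobiTheta₂_term p.1 0 (2 * τ) * jacobiTheta₂_term p.2 0 (6 * τ) := by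
  unfold jacobiTheta₂_term
  rw [← Complex.exp_nat_mul, ← Complex.exp_add]
  have h := congrArg (Int.cast : ℤ → ℂ) (nA_cast p)
  push_cast at h
  rw [h]
  congr 1
  ring

theorem term_B (τ : ℂ) (p : ℤ × ℤ) : cexp (2 * π * I * τ) ^ nB p =
    cexp (2 * π * I * τ) *
      (jacobiTheta₂_term p.1 τ (2 * τ) * jacobiTheta₂_term p.2 (3 * τ) (6 * τ)) := by
  unfold jacobiTheta₂_term
  rw [← Complex.exp_nat_mul, ← Complex.exp_add, ← Complex.exp_add]
  have h := congrArg (Int.cast : ℤ → ℂ) (nB_cast p)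
  push_cast at h
  rw [h]
  congr 1
  ring

theorem mulSum (f g : ℤ → ℂ) {a b : ℂ} (hf : HasSum f a) (hg : HasSum g b) :
    HasSum (fun p : ℤ × ℤ => f p.1 * g p.2) (a * b) :=
  hf.mul hg (summable_mul_of_summable_norm hf.summable.norm hg.summable.norm)

theorem im2 {τ : ℂ} (hτ : 0 < τ.im) : 0 < (2 * τ).im := by
  have := im_nat_mul 2 (by norm_num) hτ
  rwa [Nat.cast_ofNat] at this

theorem im6 {τ : ℂ} (hτ : 0 < τ.im) : 0 < (6 * τ).im := by
  have := im_nat_mul 6 (by norm_num) hτ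
  rwa [Nat.cast_ofNat] at this

theorem hasSum_A (τ : ℂ) (hτ : 0 < τ.im) : HasSum (fun p => cexp (2 * π * I * τ) ^ nA p)
    (jacobiTheta₂ 0 (2 * τ) * jacobiTheta₂ 0 (6 * τ)) := by
  rw [funext (term_A τ)]
  exact mulSum (fun n => jacobiTheta₂_term n 0 (2 * τ)) (fun n => jacobiTheta₂_term n 0 (6 * τ))
    (hasSum_jacobiTheta₂_term 0 (im2 hτ)) (hasSum_jacobiTheta₂_term 0 (im6 hτ))

theorem hasSum_B (τ : ℂ) (hτ : 0 < τ.im) : HasSum (fun p => cexp (2 * π * I * τ) ^ nB p)
    (cexp (2 * π * I * τ) * (jacobiTheta₂ τ (2 * τ) * jacobiTheta₂ (3 * τ) (6 * τ))) := by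
  rw [funext (term_B τ)]
  exact (mulSum (fun n => jacobiTheta₂_term n τ (2 * τ))
    (fun n => jacobiTheta₂_term n (3 * τ) (6 * τ))
    (hasSum_jacobiTheta₂_term τ (im2 hτ))
    (hasSum_jacobiTheta₂_term (3 * τ) (im6 hτ))).mul_left (cexp (2 * π * I * τ))

/-- the `q`-expansion -/
theorem hasSum_Th (τ : ℂ) (hτ : 0 < τ.im) :
    HasSum (fun m : ℕ => (rTh m : ℂ) * cexp (2 * π * I * τ) ^ m) (Th τ) := by
  have h := (hasSum_fib (hasSum_A τ hτ)).add (hasSum_fib (hasSum_B τ hτ))
  unfold Th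
  convert h using 2 with m
  unfold rTh
  push_cast
  ring

/-- a type with an involution without fixed points has even cardinality -/
theorem even_card {α : Type} (g : α → α) (hg : ∀ a, g (g a) = a) (hf : ∀ a, g a ≠ a) :
    Even (Nat.card α) := by
  classical
  rcases finite_or_infinite α with h | h
  · have := Fintype.ofFinite α
    rw [Nat.card_eq_fintype_card, ← Finset.card_univ]
    have h1 : ∑ _a : α, (1 : ZMod 2) = 0 :=
      Finset.sum_involution (fun a _ => g a) (fun _ _ => by decide) (fun a _ _ => hf a)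
        (fun _ _ => Finset.mem_univ _) (fun a _ => hg a)
    rw [Finset.sum_const, nsmul_eq_mul, mul_one] at h1
    exact (ZMod.natCast_eq_zero_iff_even).1 h1
  · rw [Nat.card_eq_zero_of_infinite]
    exact Even.zero

theorem rTh_zero : rTh 0 = 1 := by
  unfold rTh
  have hA : nA ⁻¹' {0} = {(0, 0)} := by
    ext p
    rw [Set.mem_preimage, Set.mem_singleton_iff, Set.mem_singleton_iff]
    constructor
    · intro h
      have h1 := nA_cast p
      rw [h] at h1
      push_cast at h1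
      have h2 : p.1 = 0 := by nlinarith [sq_nonneg p.1, sq_nonneg p.2]
      have h3 : p.2 = 0 := by nlinarith [sq_nonneg p.1, sq_nonneg p.2]
      exact Prod.ext h2 h3
    · rintro rfl
      simp [nA]
  have hB : nB ⁻¹' {0} = ∅ := by
    ext p
    rw [Set.mem_preimage, Set.mem_singleton_iff]
    simp only [Set.mem_empty_iff_false, iff_false]
    intro h
    have h1 := nB_cast p
    rw [h] at h1
    push_cast at h1
    have h2 := sq_add_nonneg p.1
    have h3 := sq_add_nonneg p.2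
    linarith
  rw [hA, hB]
  simp

theorem rTh_even (m : ℕ) (hm : m ≠ 0) : Even (rTh m) := by
  unfold rTh
  refine Even.add ?_ ?_
  · refine even_card (fun p => ⟨(-p.1.1, -p.1.2), ?_⟩) ?_ ?_
    · have := p.2
      rw [Set.mem_preimage, Set.mem_singleton_iff] at this ⊢
      refine Eq.trans ?_ this
      unfold nA
      simp
    · intro p
      simp
    · intro p h
      have h1 := congrArg (fun x => x.1.1) h
      have h2 := congrArg (fun x => x.1.2) h
      simp only at h1 h2
      have h3 : p.1.1 = 0 := by linarith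
      have h4 : p.1.2 = 0 := by linarith
      have h5 := p.2
      rw [Set.mem_preimage, Set.mem_singleton_iff] at h5
      have h6 := nA_cast p.1
      rw [h5, h3, h4] at h6
      push_cast at h6
      apply hm
      exact_mod_cast h6
  · refine even_card (fun p => ⟨(-1 - p.1.1, p.1.2), ?_⟩) ?_ ?_
    · have := p.2
      rw [Set.mem_preimage, Set.mem_singleton_iff] at this ⊢
      refine Eq.trans ?_ this
      unfold nB
      congr 1
      ring
    · intro p
      simp
    · intro p h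
      have h1 := congrArg (fun x => x.1.1) h
      simp only at h1
      omega

/-- the coefficients as an integral power series -/
def thZ : PowerSeries ℤ := PowerSeries.mk fun m => (rTh m : ℤ)

/-- `θ = 1` modulo `2` -/
theorem thZ_mod_two : thZ.map (Int.castRingHom (ZMod 2)) = 1 := by
  ext m
  rw [PowerSeries.coeff_map, PowerSeries.coeff_one]
  unfold thZ
  rw [PowerSeries.coeff_mk]
  split_ifs with h
  · rw [h, rTh_zero]
    simp
  · have := rTh_even m h
    simp only [Int.cast_natCast, eq_intCast]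
    exact (ZMod.natCast_eq_zero_iff_even).2 this

end Vale.Agent.P022.H390
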