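import Vale.Agent.P022.H390.ThB

/-!
P022, level 3: invariance of the theta series under `Γ₁(3)`.
-/

open Complex Real UpperHalfPlane
open scoped MatrixGroups ModularForm

noncomputable section

namespace Vale.Agent.P022.H390

/-- `[1, m; 0, 1]` -/
def Tm (m : ℤ) : SL(2, ℤ) := ⟨!![1, m; 0, 1], by norm_num [Matrix.det_fin_two_of]⟩

/-- `[1, 0; 3m, 1]` -/
def Lm (m : ℤ) : SL(2, ℤ) := ⟨!![1, 0; 3 * m, 1], by norm_num [Matrix.det_fin_two_of]⟩

theorem mul_00 (A B : SL(2, ℤ)) : (A * B) 0 0 = A 0 0 * B 0 0 + A 0 1 * B 1 0 := by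
  rw [Matrix.SpecialLinearGroup.coe_mul, Matrix.mul_apply, Fin.sum_univ_two]

theorem mul_01 (A B : SL(2, ℤ)) : (A * B) 0 1 = A 0 0 * B 0 1 + A 0 1 * B 1 1 := by
  rw [Matrix.SpecialLinearGroup.coe_mul, Matrix.mul_apply, Fin.sum_univ_two]

theorem mul_10 (A B : SL(2, ℤ)) : (A * B) 1 0 = A 1 0 * B 0 0 + A 1 1 * B 1 0 := by
  rw [Matrix.SpecialLinearGroup.coe_mul, Matrix.mul_apply, Fin.sum_univ_two]

theorem mul_11 (A B : SL(2, ℤ)) : (A * B) 1 1 = A 1 0 * B 0 1 + A 1 1 * B 1 1 := by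
  rw [Matrix.SpecialLinearGroup.coe_mul, Matrix.mul_apply, Fin.sum_univ_two]

@[simp] theorem Tm00 (m : ℤ) : Tm m 0 0 = 1 := rfl
@[simp] theorem Tm01 (m : ℤ) : Tm m 0 1 = m := rfl
@[simp] theorem Tm10 (m : ℤ) : Tm m 1 0 = 0 := rfl
@[simp] theorem Tm11 (m : ℤ) : Tm m 1 1 = 1 := rfl
@[simp] theorem Lm00 (m : ℤ) : Lm m 0 0 = 1 := rfl
@[simp] theorem Lm01 (m : ℤ) : Lm m 0 1 = 0 := rfl
@[simp] theorem Lm10 (m : ℤ) : Lm m 1 0 = 3 * m := rfl
@[simp] theorem Lm11 (m : ℤ) : Lm m 1 1 = 1 := rfl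

theorem ext2 {A B : SL(2, ℤ)} (h00 : A 0 0 = B 0 0) (h01 : A 0 1 = B 0 1) (h10 : A 1 0 = B 1 0)
    (h11 : A 1 1 = B 1 1) : A = B := by
  ext i j
  fin_cases i <;> fin_cases j
  · exact h00
  · exact h01
  · exact h10
  · exact h11

theorem det2 (A : SL(2, ℤ)) : A 0 0 * A 1 1 - A 0 1 * A 1 0 = 1 := by
  have := A.det_coe
  rwa [Matrix.det_fin_two] at this

theorem near (a c : ℤ) (hc : c ≠ 0) : ∃ n : ℤ, 2 * |a - n * c| ≤ |c| := by
  refine ⟨round ((a : ℚ) / c), ?_⟩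
  have h := abs_sub_round ((a : ℚ) / c)
  have hc' : (0 : ℚ) < |(c : ℚ)| := abs_pos.2 (by exact_mod_cast hc)
  have hc0 : (c : ℚ) ≠ 0 := by exact_mod_cast hc
  have h1 : |(a : ℚ) - round ((a : ℚ) / c) * c| = |(a : ℚ) / c - round ((a : ℚ) / c)| * |(c : ℚ)| := by
    rw [← abs_mul]
    congr 1
    field_simp
  have h2 : 2 * |(a : ℚ) - round ((a : ℚ) / c) * c| ≤ |(c : ℚ)| := by
    rw [h1]
    nlinarith
  exact_mod_cast h2

/-- `Γ₁(3)` is generated by `[1, m; 0, 1]` and `[1, 0; 3m, 1]` -/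
theorem gen (H : Subgroup SL(2, ℤ)) (hT : ∀ m, Tm m ∈ H) (hL : ∀ m, Lm m ∈ H) (n : ℕ) :
    ∀ γ : SL(2, ℤ), 3 ∣ γ 1 0 → 3 ∣ γ 0 0 - 1 → (γ 1 0).natAbs = n → γ ∈ H := by
  induction n using Nat.strong_induction_on with
  | _ n ih =>
    intro γ h3 h1 hn
    have hdet := det2 γ
    by_cases hc : γ 1 0 = 0
    · rw [hc, mul_zero, sub_zero] at hdet
      have ha : γ 0 0 = 1 := by
        rcases Int.eq_one_or_neg_one_of_mul_eq_one hdet with h | h
        · exact h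
        · rw [h] at h1
          omega
      have hd : γ 1 1 = 1 := by
        rw [ha, one_mul] at hdet
        exact hdet
      have : γ = Tm (γ 0 1) := ext2 (by rw [ha]; rfl) rfl (by rw [hc]; rfl) (by rw [hd]; rfl)
      rw [this]
      exact hT _
    · obtain ⟨k, hk⟩ := near (γ 0 0) (γ 1 0) hc
      set a' := γ 0 0 - k * γ 1 0 with ha'
      have ha0 : a' ≠ 0 := by
        intro h0
        obtain ⟨u, hu⟩ := h3
        obtain ⟨v, hv⟩ := h1
        rw [h0] at ha'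
        rw [hu] at ha'
        have : (3 : ℤ) ∣ 1 := ⟨k * u - v, by linarith⟩
        omega
      obtain ⟨m, hm⟩ := near (γ 1 0) (3 * a') (by omega)
      set γ' := Lm (-m) * (Tm (-k) * γ) with hγ'
      have e00 : γ' 0 0 = a' := by
        rw [hγ', mul_00, mul_00, Lm00, Lm01, Tm00, Tm01, ha']
        ring
      have e10 : γ' 1 0 = γ 1 0 - m * (3 * a') := by
        rw [hγ', mul_10, mul_10, mul_00, Lm10, Lm11, Tm00, Tm01, Tm10, Tm11, ha']
        ring
      have hlt : (γ' 1 0).natAbs < n := by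
        rw [e10, ← hn]
        zify
        rw [abs_mul, abs_of_pos (by norm_num : (0 : ℤ) < 3)] at hm
        have hpos : 0 < |γ 1 0| := abs_pos.2 hc
        linarith
      have hmem : γ' ∈ H := by
        refine ih _ hlt γ' ?_ ?_ rfl
        · rw [e10]
          exact dvd_sub h3 ⟨m * a', by ring⟩
        · rw [e00, ha']
          obtain ⟨u, hu⟩ := h3
          obtain ⟨v, hv⟩ := h1
          exact ⟨v - k * u, by rw [hu]; linarith⟩
      have hinv1 : Tm (-k) = (Tm k)⁻¹ := by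
        rw [eq_inv_iff_mul_eq_one]
        refine ext2 ?_ ?_ ?_ ?_
        · rw [mul_00]; simp
        · rw [mul_01]; simp
        · rw [mul_10]; simp
        · rw [mul_11]; simp
      have hinv2 : Lm (-m) = (Lm m)⁻¹ := by
        rw [eq_inv_iff_mul_eq_one]
        refine ext2 ?_ ?_ ?_ ?_
        · rw [mul_00]; simp
        · rw [mul_01]; simp
        · rw [mul_10]; simp
        · rw [mul_11]; simp
      have : γ = Tm k * (Lm m * γ') := by
        rw [hγ', hinv1, hinv2]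
        group
      rw [this]
      exact H.mul_mem (hT k) (H.mul_mem (hL m) hmem)

/-- the theta series on the upper half plane -/
def thH (τ : ℍ) : ℂ := Th τ

theorem Th_per : Function.Periodic Th 1 := Th_add_one

theorem Th_add_int (τ : ℂ) (m : ℤ) : Th (τ + m) = Th τ := by
  have := Th_per.int_mul m τ
  rwa [mul_one] at this

theorem Th_Lm (m : ℤ) (τ : ℂ) (hτ : 0 < τ.im) :
    Th (τ / (3 * m * τ + 1)) = (3 * m * τ + 1) * Th τ := by
  have hτ0 : τ ≠ 0 := by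
    rintro rfl
    simp at hτ
  have h1 : 3 * m * τ + 1 ≠ 0 := by
    intro h
    rcases eq_or_ne m 0 with rfl | hm
    · simp at h
    · have := congrArg Complex.im h
      have h2 : (3 * (m : ℂ) * τ + 1).im = 3 * m * τ.im := by
        simp [Complex.mul_im]
      rw [h2, Complex.zero_im] at this
      have hm' : (m : ℝ) ≠ 0 := by exact_mod_cast hm
      have h3 : (3 : ℝ) * m * τ.im ≠ 0 :=
        mul_ne_zero (mul_ne_zero (by norm_num) hm') hτ.ne'
      exact h3 this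
  have hu : 0 < (-1 / (3 * τ) - m).im := by
    have h0 : ((m : ℂ)).im = 0 := Complex.intCast_im m
    rw [Complex.sub_im, h0, sub_zero, neg_div, Complex.neg_im, one_div,
      Complex.inv_im, neg_div, neg_neg]
    have h3 : 0 < (3 * τ).im := by simpa using im_nat_mul 3 (by norm_num) hτ
    have h4 : 0 < Complex.normSq (3 * τ) := Complex.normSq_pos.2 (mul_ne_zero three_ne_zero hτ0)
    positivity
  have h := Th_W (-1 / (3 * τ) - m) hu
  have h2 : -1 / (3 * (-1 / (3 * τ) - m)) = τ / (3 * m * τ + 1) := by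
    rw [show (-1 / (3 * τ) - m) = -(3 * m * τ + 1) / (3 * τ) by field_simp; ring]
    field_simp
  have h7 : Th (-1 / (3 * τ) - m) = Th (-1 / (3 * τ)) := by
    rw [← Th_add_int (-1 / (3 * τ) - m) m, sub_add_cancel]
  rw [h2, h7, Th_W τ hτ] at h
  have e : (-1 / (3 * τ) - m) * τ = -(3 * m * τ + 1) / 3 := by
    field_simp
    ring
  have hI : Complex.I * Complex.I = -1 := Complex.I_mul_I
  rw [h]
  linear_combination (Complex.I * Complex.I * (-1 / (3 * τ) - m) * τ * Th τ) * s3_sq +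
    (3 * (-1 / (3 * τ) - m) * τ * Th τ) * hI - 3 * Th τ * e

theorem thH_Tm (m : ℤ) : thH ∣[(1 : ℤ)] Tm m = thH := by
  funext τ
  rw [ModularForm.slash_action_eq'_iff]
  unfold thH
  rw [coe_specialLinearGroup_apply]
  simp only [Tm00, Tm01, Tm10, Tm11, algebraMap_int_eq, eq_intCast, Int.cast_one, ofReal_one,
    one_mul, Int.cast_zero, ofReal_zero, zero_mul, zero_add, div_one, ofReal_intCast, one_zpow]
  exact Th_add_int _ _

theorem thH_Lm (m : ℤ) : thH ∣[(1 : ℤ)] Lm m = thH := by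
  funext τ
  rw [ModularForm.slash_action_eq'_iff]
  unfold thH
  rw [coe_specialLinearGroup_apply]
  simp only [Lm00, Lm01, Lm10, Lm11, algebraMap_int_eq, eq_intCast, Int.cast_one, ofReal_one,
    one_mul, Int.cast_zero, ofReal_zero, add_zero, ofReal_intCast, zpow_one, Int.cast_mul,
    Int.cast_ofNat, ofReal_mul, ofReal_ofNat]
  exact Th_Lm m τ τ.im_pos

/-- the stabiliser -/
def stab : Subgroup SL(2, ℤ) where
  carrier := {γ | thH ∣[(1 : ℤ)] γ = thH}
  mul_mem' := by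
    intro a b ha hb
    simp only [Set.mem_ofPred_eq] at ha hb ⊢
    rw [SlashAction.slash_mul, ha, hb]
  one_mem' := by
    simp only [Set.mem_ofPred_eq]
    exact SlashAction.slash_one _ _
  inv_mem' := by
    intro a ha
    simp only [Set.mem_ofPred_eq] at ha ⊢
    conv_lhs => rw [← ha]
    rw [← SlashAction.slash_mul, mul_inv_cancel, SlashAction.slash_one]

/-- invariance of weight `1` under `Γ₁(3)` -/
theorem thH_inv (γ : SL(2, ℤ)) (h3 : 3 ∣ γ 1 0) (h1 : 3 ∣ γ 0 0 - 1) :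
    thH ∣[(1 : ℤ)] γ = thH :=
  gen stab thH_Tm thH_Lm _ γ h3 h1 rfl

theorem slash_neg (γ : SL(2, ℤ)) (f : ℍ → ℂ) : f ∣[(1 : ℤ)] (-γ) = -(f ∣[(1 : ℤ)] γ) := by
  funext τ
  rw [Pi.neg_apply, ModularForm.SL_slash_apply, ModularForm.SL_slash_apply,
    ModularGroup.SL_neg_smul]
  have h : denom (-γ : SL(2, ℤ)) τ = -denom γ τ := by
    rw [ModularGroup.denom_apply, ModularGroup.denom_apply]
    simp
    ring
  rw [h, zpow_neg_one, zpow_neg_one, inv_neg, mul_neg]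

/-- the action of `Γ₀(3)` is by the character of conductor `3` -/
theorem thH_Gamma0 (γ : SL(2, ℤ)) (h3 : 3 ∣ γ 1 0) :
    (3 ∣ γ 0 0 - 1 → thH ∣[(1 : ℤ)] γ = thH) ∧ (¬ 3 ∣ γ 0 0 - 1 → thH ∣[(1 : ℤ)] γ = -thH) := by
  refine ⟨thH_inv γ h3, fun h => ?_⟩
  have hdet := det2 γ
  have h4 : 3 ∣ -γ 0 0 - 1 := by
    obtain ⟨u, hu⟩ := h3
    rw [hu] at hdet
    have h5 : ¬ 3 ∣ γ 0 0 := by
      rintro ⟨v, hv⟩
      rw [hv] at hdet
      have : (3 : ℤ) ∣ 1 := ⟨v * γ 1 1 - γ 0 1 * u, by linarith⟩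
      omega
    omega
  have h6 : thH ∣[(1 : ℤ)] (-γ) = thH := by
    refine thH_inv (-γ) ?_ ?_
    · rw [Matrix.SpecialLinearGroup.coe_neg, Matrix.neg_apply]
      exact (dvd_neg).2 h3
    · rw [Matrix.SpecialLinearGroup.coe_neg, Matrix.neg_apply]
      exact h4
  rw [slash_neg] at h6
  exact neg_eq_iff_eq_neg.1 h6

end Vale.Agent.P022.H390
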