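import Vale.Agent.P022.H390.ThC

/-!
P022, level 3: the theta series as a modular form of weight `1` on `Γ₁(3)`.
-/

open Complex Real UpperHalfPlane CongruenceSubgroup
open scoped MatrixGroups ModularForm Manifold

noncomputable section

namespace Vale.Agent.P022.H390

theorem hasSum_thH (τ : ℍ) :
    HasSum (fun m : ℕ => (rTh m : ℂ) • Function.Periodic.qParam 1 τ ^ m) (thH τ) := by
  have h := hasSum_Th τ τ.im_pos
  unfold thH Function.Periodic.qParam
  simp only [ofReal_one, div_one, smul_eq_mul]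
  exact h

theorem bdd_one : IsBoundedAtImInfty thH :=
  isBoundedAtImInfty_of_hasSum_qExpansion (h := 1) one_pos hasSum_thH

theorem third_im (τ : ℍ) : 0 < ((τ : ℂ) / 3).im := by
  rw [show (τ : ℂ) / 3 = ((1 / 3 : ℝ) : ℂ) * τ by push_cast; ring, Complex.im_ofReal_mul]
  have := τ.im_pos
  positivity

theorem bdd_third : IsBoundedAtImInfty (fun τ : ℍ => Th ((τ : ℂ) / 3)) := by
  refine isBoundedAtImInfty_of_hasSum_qExpansion (h := 3) (c := fun m => (rTh m : ℂ))
    (by norm_num) fun τ => ?_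
  have h := hasSum_Th _ (third_im τ)
  unfold Function.Periodic.qParam
  simp only [ofReal_ofNat, smul_eq_mul]
  convert h using 5
  ring

theorem S_slash : thH ∣[(1 : ℤ)] ModularGroup.S =
    (s3 * (-Complex.I) / 3) • fun τ : ℍ => Th ((τ : ℂ) / 3) := by
  funext τ
  rw [ModularForm.SL_slash_apply, ModularGroup.denom_S, Pi.smul_apply, smul_eq_mul, zpow_neg_one]
  unfold thH
  rw [modular_S_smul]
  have h := Th_S τ τ.im_pos
  have h0 : (τ : ℂ) ≠ 0 := τ.ne_zero
  change Th ((-(τ : ℂ))⁻¹) * _ = _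
  rw [show (-(τ : ℂ))⁻¹ = -1 / τ by rw [inv_neg, neg_div, one_div], h]
  field_simp

theorem bdd_S : IsBoundedAtImInfty (thH ∣[(1 : ℤ)] ModularGroup.S) := by
  rw [S_slash]
  exact Asymptotics.IsBigO.const_smul_left bdd_third _

theorem bdd_T {f : ℍ → ℂ} (hf : IsBoundedAtImInfty f) (m : ℤ) :
    IsBoundedAtImInfty (f ∣[(1 : ℤ)] Tm m) := by
  rw [ModularForm.SL_slash]
  refine hf.slash 1 ?_
  simp

theorem S00 : ModularGroup.S 0 0 = 0 := rfl
theorem S01 : ModularGroup.S 0 1 = -1 := rfl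
theorem S10 : ModularGroup.S 1 0 = 1 := rfl
theorem S11 : ModularGroup.S 1 1 = 0 := rfl

theorem bdd_all (γ : SL(2, ℤ)) : IsBoundedAtImInfty (thH ∣[(1 : ℤ)] γ) := by
  have key : ∀ δ : SL(2, ℤ), 3 ∣ δ 1 0 → (thH ∣[(1 : ℤ)] δ = thH ∨ thH ∣[(1 : ℤ)] δ = -thH) :=
    fun δ h => by
      by_cases h1 : 3 ∣ δ 0 0 - 1
      · exact Or.inl ((thH_Gamma0 δ h).1 h1)
      · exact Or.inr ((thH_Gamma0 δ h).2 h1)
  by_cases hc : 3 ∣ γ 1 0
  · rcases key γ hc with h | h
    · rw [h]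
      exact bdd_one
    · rw [h]
      exact bdd_one.neg_left
  · set j : ℤ := γ 1 0 * γ 1 1 with hj
    set δ := γ * (ModularGroup.S * Tm j)⁻¹ with hδ
    have e1 : γ = δ * (ModularGroup.S * Tm j) := by
      rw [hδ, inv_mul_cancel_right]
    have e2 : 3 ∣ δ 1 0 := by
      have h10 : γ 1 0 = δ 1 1 := by
        conv_lhs => rw [e1]
        rw [mul_10 δ, mul_00 ModularGroup.S, mul_10 ModularGroup.S, S00, S01, S10, S11, Tm00, Tm10]
        ring
      have h11 : γ 1 1 = -δ 1 0 + δ 1 1 * j := by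
        conv_lhs => rw [e1]
        rw [mul_11 δ, mul_01 ModularGroup.S, mul_11 ModularGroup.S, S00, S01, S10, S11, Tm01, Tm11]
        ring
      have h12 : δ 1 0 = (γ 1 0 * γ 1 0 - 1) * γ 1 1 := by
        rw [← h10, hj] at h11
        linarith
      rw [h12]
      refine Dvd.dvd.mul_right ?_ _
      obtain h | h : γ 1 0 % 3 = 1 ∨ γ 1 0 % 3 = 2 := by omega
      · obtain ⟨u, hu⟩ : ∃ u, γ 1 0 = 3 * u + 1 := ⟨γ 1 0 / 3, by omega⟩
        exact ⟨3 * u * u + 2 * u, by rw [hu]; ring⟩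
      · obtain ⟨u, hu⟩ : ∃ u, γ 1 0 = 3 * u + 2 := ⟨γ 1 0 / 3, by omega⟩
        exact ⟨3 * u * u + 4 * u + 1, by rw [hu]; ring⟩
    rw [e1, SlashAction.slash_mul, SlashAction.slash_mul]
    refine bdd_T ?_ j
    rcases key δ e2 with h | h
    · rw [h]
      exact bdd_S
    · rw [h, SlashAction.neg_slash]
      exact bdd_S.neg_left

theorem diffTh {τ : ℂ} (hτ : 0 < τ.im) : DifferentiableAt ℂ Th τ := by
  have h2 : DifferentiableAt ℂ (fun w : ℂ => 2 * w) τ := differentiableAt_id.const_mul 2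
  have h3 : DifferentiableAt ℂ (fun w : ℂ => 3 * w) τ := differentiableAt_id.const_mul 3
  have h6 : DifferentiableAt ℂ (fun w : ℂ => 6 * w) τ := differentiableAt_id.const_mul 6
  have a1 : DifferentiableAt ℂ (fun w : ℂ => jacobiTheta₂ 0 (2 * w)) τ :=
    DifferentiableAt.comp τ (differentiableAt_jacobiTheta₂_snd 0 (im2 hτ)) h2
  have a2 : DifferentiableAt ℂ (fun w : ℂ => jacobiTheta₂ 0 (6 * w)) τ :=
    DifferentiableAt.comp τ (differentiableAt_jacobiTheta₂_snd 0 (im6 hτ)) h6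
  have a3 : DifferentiableAt ℂ (fun w : ℂ => jacobiTheta₂ w (2 * w)) τ :=
    DifferentiableAt.comp (g := fun p : ℂ × ℂ => jacobiTheta₂ p.1 p.2) τ
      (hasFDerivAt_jacobiTheta₂ τ (im2 hτ)).differentiableAt (differentiableAt_id.prodMk h2)
  have a4 : DifferentiableAt ℂ (fun w : ℂ => jacobiTheta₂ (3 * w) (6 * w)) τ :=
    DifferentiableAt.comp (g := fun p : ℂ × ℂ => jacobiTheta₂ p.1 p.2) τ
      (hasFDerivAt_jacobiTheta₂ (3 * τ) (im6 hτ)).differentiableAt (h3.prodMk h6)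
  have a5 : DifferentiableAt ℂ (fun w : ℂ => cexp (2 * π * Complex.I * w)) τ :=
    (differentiableAt_id.const_mul _).cexp
  exact (a1.mul a2).add (a5.mul (a3.mul a4))

theorem holo : MDiff thH := by
  rw [mdifferentiable_iff]
  intro z hz
  have hz' : 0 < z.im := hz
  refine DifferentiableAt.differentiableWithinAt ?_
  refine (diffTh hz').congr_of_eventuallyEq ?_
  filter_upwards [isOpen_upperHalfPlaneSet.mem_nhds hz] with w hw
  unfold thH
  rw [Function.comp_apply, ofComplex_apply_of_im_pos hw]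

theorem mem_Gamma1 {γ : SL(2, ℤ)} (h : γ ∈ Gamma1 3) : 3 ∣ γ 1 0 ∧ 3 ∣ γ 0 0 - 1 := by
  rw [Gamma1_mem] at h
  refine ⟨(ZMod.intCast_zmod_eq_zero_iff_dvd _ 3).1 h.2.2, ?_⟩
  have := h.1
  exact (ZMod.intCast_zmod_eq_zero_iff_dvd _ 3).1 (by push_cast; rw [this]; ring)

/-- `θ(τ) = ∑ q^(x²+xy+y²)` as a modular form of weight `1` on `Γ₁(3)` -/
def theta : ModularForm ((Gamma1 3 : Subgroup SL(2, ℤ)) : Subgroup (GL (Fin 2) ℝ)) 1 where
  toFun := thH
  slash_action_eq' := by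
    rintro _ ⟨γ, hγ, rfl⟩
    obtain ⟨h3, h1⟩ := mem_Gamma1 hγ
    exact thH_inv γ h3 h1
  holo' := holo
  bdd_at_cusps' {c} hc := by
    have hc' : IsCusp c (Matrix.SpecialLinearGroup.mapGL ℝ : SL(2, ℤ) →* _).range :=
      hc.mono (by
        rintro _ ⟨γ, _, rfl⟩
        exact ⟨γ, rfl⟩)
    rw [OnePoint.isBoundedAt_iff_forall_SL2Z hc']
    intro γ _
    exact bdd_all γ

/-- the `q`-expansion of `θ` is integral -/
theorem qExp_theta : qExpansion 1 theta = thZ.map (Int.castRingHom ℂ) := by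
  ext m
  have h := ModularFormClass.qExpansion_coeff_unique (F := ModularForm
    ((Gamma1 3 : Subgroup SL(2, ℤ)) : Subgroup (GL (Fin 2) ℝ)) 1) (f := theta) (h := 1)
    (c := fun m => (rTh m : ℂ)) one_pos (by simp) hasSum_thH m
  rw [← h, PowerSeries.coeff_map]
  unfold thZ
  rw [PowerSeries.coeff_mk]
  simp

end Vale.Agent.P022.H390
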